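import Vale.Agent.P127S.Main

/-! Sticky Kakeya sets in `ℝ⁴` have Hausdorff dimension `4`. -/

namespace Vale.Agent.Results.P127.Sticky

open Vale.Agent.P127S

theorem result (K : Set (EuclideanSpace ℝ (Fin 4)))
    (a : EuclideanSpace ℝ (Fin 4) → EuclideanSpace ℝ (Fin 4))
    (hK : ∀ e : EuclideanSpace ℝ (Fin 4), ‖e‖ = 1 → ∀ t ∈ Set.Icc (0 : ℝ) 1, a e + t • e ∈ K)
    (hs : dimP {z | ∃ e : EuclideanSpace ℝ (Fin 4), ‖e‖ = 1 ∧ z = lineCoord (a e) e} ≤ 3) :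
    dimH K = 4 :=
  sticky K a hK hs

end Vale.Agent.Results.P127.Sticky
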